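import Vale.Agent.P181.ST.Defs

/-!
# P181, ST (T7): growth of the number of partitions without parts equal to one (helper460)
-/

set_option autoImplicit false

namespace Vale.Agent.P181.ST.H460

open Vale.Agent.P181.SZ (PT)

theorem mem_PT {w : ℕ} {k : Multiset ℕ} : k ∈ PT w ↔ k.sum = w ∧ ∀ x ∈ k, 2 ≤ x := by
  rw [PT, Finset.mem_filter, Finset.mem_image]
  constructor
  · rintro ⟨⟨π, -, rfl⟩, h⟩
    exact ⟨π.parts_sum, h⟩
  · rintro ⟨h, h2⟩
    exact ⟨⟨⟨k, fun {i} hi => by have := h2 i hi; omega, h⟩, Finset.mem_univ _, rfl⟩, h2⟩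

/-- Parts `2` and at most one `3`, of sum `n`. -/
def fill (n : ℕ) : Multiset ℕ :=
  if n % 2 = 0 then Multiset.replicate (n / 2) 2 else 3 ::ₘ Multiset.replicate ((n - 3) / 2) 2

theorem fill_sum {n : ℕ} (h : 2 ≤ n) : (fill n).sum = n := by
  rw [fill]
  split
  · rw [Multiset.sum_replicate, smul_eq_mul]
    omega
  · rw [Multiset.sum_cons, Multiset.sum_replicate, smul_eq_mul]
    omega

theorem fill_two {n x : ℕ} (hx : x ∈ fill n) : 2 ≤ x := by
  rw [fill] at hx
  split at hx
  · exact (Multiset.eq_of_mem_replicate hx).ge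
  · rcases Multiset.mem_cons.1 hx with h | h
    · omega
    · exact (Multiset.eq_of_mem_replicate h).ge

theorem card_big_mul_le (S : ℕ) (ρ : Multiset ℕ) :
    ((Finset.Ico S (2 * S)).filter (fun c => c ∈ ρ)).card * S ≤ ρ.sum := by
  classical
  set A : Finset ℕ := (Finset.Ico S (2 * S)).filter (fun c => c ∈ ρ) with hA
  have h1 : A.val ≤ ρ := by
    rw [Finset.val_le_iff_val_subset]
    intro x hx
    rw [Finset.mem_val] at hx
    exact (Finset.mem_filter.mp hx).2
  have h3 : A.val.sum ≤ ρ.sum := by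
    obtain ⟨t, ht⟩ := Multiset.le_iff_exists_add.mp h1
    rw [ht, Multiset.sum_add]
    omega
  have h4 : A.val.sum = A.sum (fun x => x) := by
    rw [Finset.sum, Multiset.map_id']
  have h5 : A.card * S ≤ A.sum (fun x => x) := by
    rw [← smul_eq_mul]
    apply Finset.card_nsmul_le_sum
    intro x hx
    exact (Finset.mem_Ico.mp (Finset.mem_filter.mp hx).1).1
  omega

theorem step (S r z : ℕ) (hS : 2 ≤ S) (hr : 2 * S + 1 ≤ r) :
    S * (PT z).card ≤ (z + r) / S * (PT (z + r)).card := by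
  classical
  have h1 : (Finset.Ico S (2 * S) ×ˢ PT z).card = S * (PT z).card := by
    rw [Finset.card_product, Nat.card_Ico]
    congr 1
    omega
  rw [← h1]
  refine Finset.card_le_mul_card_image_of_maps_to
    (f := fun x : ℕ × Multiset ℕ => x.2 + (x.1 ::ₘ fill (r - x.1))) ?_ _ ?_
  · rintro ⟨c, k⟩ hx
    obtain ⟨hc, hk⟩ := Finset.mem_product.1 hx
    have hc' := Finset.mem_Ico.1 hc
    obtain ⟨hk1, hk2⟩ := mem_PT.1 hk
    refine mem_PT.2 ⟨?_, fun x hx => ?_⟩
    · change (k + (c ::ₘ fill (r - c))).sum = z + r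
      rw [Multiset.sum_add, Multiset.sum_cons, fill_sum (by omega), hk1]
      omega
    · rcases Multiset.mem_add.1 hx with h | h
      · exact hk2 x h
      · rcases Multiset.mem_cons.1 h with h | h
        · subst h
          simp only at hc'
          omega
        · exact fill_two h
  · intro ρ hρ
    have h2 := card_big_mul_le S ρ
    rw [(mem_PT.1 hρ).1] at h2
    refine le_trans ?_ ((Nat.le_div_iff_mul_le (by omega)).mpr h2)
    refine Finset.card_le_card_of_injOn (fun x => x.1) ?_ ?_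
    · intro x hx
      rw [Finset.mem_coe, Finset.mem_filter, Finset.mem_product] at hx
      rw [Finset.mem_coe, Finset.mem_filter]
      refine ⟨hx.1.1, ?_⟩
      rw [← hx.2]
      exact Multiset.mem_add.2 (Or.inr (Multiset.mem_cons_self _ _))
    · intro x hx y hy hxy
      rw [Finset.mem_coe, Finset.mem_filter] at hx hy
      obtain ⟨c, k⟩ := x
      obtain ⟨c', k'⟩ := y
      obtain rfl : c = c' := hxy
      have h5 : k = k' := add_right_cancel (hx.2.trans hy.2.symm)
      rw [h5]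

theorem step' (X S r z : ℕ) (hS : 2 ≤ S) (hr : 2 * S + 1 ≤ r) (h : X * (z + r) ≤ S ^ 2) :
    X * (PT z).card ≤ (PT (z + r)).card := by
  have h1 := step S r z hS hr
  set N := (z + r) / S with hN
  have hN0 : 0 < N := Nat.div_pos (by omega) (by omega)
  have h2 : X * N ≤ S := by
    have h3 : X * N * S ≤ S * S := by
      calc X * N * S = X * (N * S) := by ring
        _ ≤ X * (z + r) := Nat.mul_le_mul_left _ (Nat.div_mul_le_self _ _)
        _ ≤ S ^ 2 := h
        _ = S * S := by ring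
    exact Nat.le_of_mul_le_mul_right h3 (by omega)
  have h4 : N * (X * (PT z).card) ≤ N * (PT (z + r)).card := by
    calc N * (X * (PT z).card) = (X * N) * (PT z).card := by ring
      _ ≤ S * (PT z).card := Nat.mul_le_mul_right _ h2
      _ ≤ _ := h1
  exact Nat.le_of_mul_le_mul_left h4 hN0

theorem growth (X S : ℕ) (hS : 2 ≤ S) (K : ℕ) : ∀ z r : ℕ, (K + 1) * (2 * S + 1) ≤ r →
    X * (z + r) ≤ S ^ 2 → X ^ (K + 1) * (PT z).card ≤ (PT (z + r)).card := by
  induction K with
  | zero =>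
    intro z r hr h
    rw [zero_add, pow_one]
    exact step' X S r z hS (by omega) h
  | succ K ih =>
    intro z r hr h
    have hr1 : (K + 1) * (2 * S + 1) + (2 * S + 1) ≤ r := by
      calc (K + 1) * (2 * S + 1) + (2 * S + 1) = (K + 1 + 1) * (2 * S + 1) := by ring
        _ ≤ r := hr
    obtain ⟨r', rfl⟩ : ∃ r', r = 2 * S + 1 + r' := ⟨r - (2 * S + 1), by omega⟩
    have h1 : X * (z + (2 * S + 1)) ≤ S ^ 2 := by
      refine le_trans (Nat.mul_le_mul_left _ ?_) h
      omega
    have h2 := step' X S (2 * S + 1) z hS le_rfl h1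
    have h3 := ih (z + (2 * S + 1)) r' (by omega) (by
      rw [add_assoc]
      exact h)
    calc X ^ (K + 1 + 1) * (PT z).card = X ^ (K + 1) * (X * (PT z).card) := by ring
      _ ≤ X ^ (K + 1) * (PT (z + (2 * S + 1))).card := Nat.mul_le_mul_left _ h2
      _ ≤ (PT (z + (2 * S + 1) + r')).card := h3
      _ = (PT (z + (2 * S + 1 + r'))).card := by rw [add_assoc]

/-- **(T7)** -/
theorem pureH : PureH := by
  intro w d X K Q s t hK hX hd hd2 hQ hst ht
  obtain ⟨K, rfl⟩ : ∃ k, K = k + 1 := ⟨K - 1, by omega⟩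
  set k := K + 1 with hk
  have hX16 : 16 ≤ X := by nlinarith
  have hXk : 16 * k ≤ X := by nlinarith
  have hdw : d ≤ w := by omega
  have hX4 : X ^ 4 ≤ d := by
    have h1 : d * X ^ 4 ≤ d * d := by
      calc d * X ^ 4 ≤ w * X ^ 4 := Nat.mul_le_mul_right _ hdw
        _ ≤ d ^ 2 := hd
        _ = d * d := by ring
    exact Nat.le_of_mul_le_mul_left h1 (by omega)
  have hXd : X ≤ d := le_trans (Nat.le_self_pow (by norm_num) X) hX4
  have hkd : 16 * k ≤ d := hXk.trans hXd
  set S := d / (4 * k) with hS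
  have hk0 : 0 < 4 * k := by omega
  have hS3 : 3 ≤ S := (Nat.le_div_iff_mul_le hk0).2 (by omega)
  have h1 : 4 * k * S ≤ d := Nat.mul_div_le _ _
  have h2 : d < 4 * k * (S + 1) := by
    have := Nat.lt_mul_div_succ d hk0
    exact this
  have h3 : k * (2 * S + 1) ≤ d := by
    have h4 : 4 * (k * S) ≤ d := by rw [← mul_assoc]; exact h1
    have h5 : k * (2 * S + 1) = 2 * (k * S) + k := by ring
    omega
  have h4 : d ≤ 8 * (k * S) := by
    have h5 : k * (S + 1) ≤ 2 * (k * S) := by
      have : k * 1 ≤ k * S := Nat.mul_le_mul_left _ (by omega)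
      calc k * (S + 1) = k * S + k * 1 := by ring
        _ ≤ 2 * (k * S) := by omega
    have h6 : 4 * k * (S + 1) = 4 * (k * (S + 1)) := by ring
    omega
  have h5 : X * w ≤ S ^ 2 := by
    have h6 : w * X ^ 4 ≤ 4 * (X * S ^ 2) := by
      calc w * X ^ 4 ≤ d ^ 2 := hd
        _ ≤ (8 * (k * S)) ^ 2 := Nat.pow_le_pow_left h4 2
        _ = 4 * ((16 * k ^ 2) * S ^ 2) := by ring
        _ ≤ 4 * (X * S ^ 2) := Nat.mul_le_mul_left _ (Nat.mul_le_mul_right _ hX)
    have h7 : 4 ≤ X ^ 2 := by nlinarith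
    have h8 : X * (4 * (X * w)) ≤ X * (4 * S ^ 2) := by
      calc X * (4 * (X * w)) = 4 * (w * X ^ 2) := by ring
        _ ≤ X ^ 2 * (w * X ^ 2) := Nat.mul_le_mul_right _ h7
        _ = w * X ^ 4 := by ring
        _ ≤ 4 * (X * S ^ 2) := h6
        _ = X * (4 * S ^ 2) := by ring
    have h9 := Nat.le_of_mul_le_mul_left h8 (by omega)
    omega
  obtain ⟨r, rfl⟩ : ∃ r, t = s + r := ⟨t - s, by omega⟩
  have h6 := growth X S (by omega) K s r (h3.trans (by omega))
    (le_trans (Nat.mul_le_mul_left _ ht) h5)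
  have h7 : Q ≤ X ^ k := le_trans (Nat.le_mul_of_pos_right _ (by omega)) hQ
  exact (Nat.mul_le_mul_right _ h7).trans h6

end Vale.Agent.P181.ST.H460
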